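import Vale.Agent.Lib.P329.Groups

/-!
Languages recognized by finite groups that are residually (abelian by elementary abelian) have
generalized star height at most one.
-/

namespace Vale.Agent.Results.P329.AbelianByElementary

open Vale.Agent.P329

/-- Let `G` be a finite group such that every element `g ≠ 1` survives in some quotient `G ⧸ M`
which has an abelian normal subgroup `N ⧸ M` with `G ⧸ N` an elementary abelian `p`-group, for a
prime `p` (both `M`, `N` and `p` may depend on `g`). Then every language recognized by `G`, over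
any finite alphabet, has generalized star height at most one. -/
theorem result (G : Type) [Group G] [Finite G]
    (h : ∀ g : G, g ≠ 1 → ∃ (M N : Subgroup G) (p : ℕ), M.Normal ∧ N.Normal ∧ M ≤ N ∧ g ∉ M ∧
      p.Prime ∧ (∀ x ∈ N, ∀ y ∈ N, x * y * x⁻¹ * y⁻¹ ∈ M) ∧ (∀ x : G, x ^ p ∈ N) ∧
      (∀ x y : G, x * y * x⁻¹ * y⁻¹ ∈ N))
    (α : Type) [Finite α] (φ : FreeMonoid α →* G) (S : Set G) :
    ∃ P : GRE α, (∀ w : List α, w ∈ P.lang ↔ φ (FreeMonoid.ofList w) ∈ S) ∧
      P.starHeight ≤ 1 := by
  obtain ⟨P, hP, hs⟩ := height_one_of_residually h (fun a => φ (FreeMonoid.of a)) S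
  refine ⟨P, fun w => ?_, hs⟩
  rw [hP]
  have key : ∀ w : List α,
      (w.map (fun a => φ (FreeMonoid.of a))).prod = φ (FreeMonoid.ofList w) := by
    intro w
    induction w with
    | nil => simp
    | cons a w ih =>
      rw [List.map_cons, List.prod_cons, ih, ← map_mul]
      rfl
  have hk := key w
  constructor
  · intro hw
    have : (w.map (fun a => φ (FreeMonoid.of a))).prod ∈ S := hw
    rwa [hk] at this
  · intro hw
    change (w.map (fun a => φ (FreeMonoid.of a))).prod ∈ S
    rwa [hk]

end Vale.Agent.Results.P329.AbelianByElementary
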