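import Vale.Agent.Lib.P329H.Link

/-!
# P329: generalized star height at most one for a class of group languages
-/

namespace Vale.Agent.Results.P329.GroupLanguages

open Vale.Agent.P329H

/-- For a group `G` and a prime `p` let `V p` be the smallest normal subgroup of `G` such that
`G ⧸ V p` is an elementary abelian `p`-group.  Let `G` be a finite group in which the derived
subgroups `⁅V p, V p⁆`, over all primes `p`, intersect trivially.  Then every (regular) language
`L` over a finite alphabet `A` which is recognized by `G`, i.e. membership of a word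
`a₁ ⋯ aₖ` depends only on the product `f a₁ ⋯ f aₖ` in `G` for some `f : A → G`, has generalized
star height at most one. -/
theorem result (G : Type) [Group G] [Finite G]
    (hG : ⨅ p : {p : ℕ // p.Prime}, ⁅elemKernel G p, elemKernel G p⁆ = ⊥)
    (A : Type) [Finite A] (L : Language A)
    (hL : ∃ (f : A → G) (S : Set G), ∀ w : List A, w ∈ L ↔ (w.map f).prod ∈ S) :
    StarHeightLE 1 L := by
  obtain ⟨f, S, hS⟩ := hL
  refine of_heightLE ?_
  have key := Vale.Agent.P329.height_one_of_residually (α := A) (G := G) ?_ f S
  · obtain ⟨P, hP, hs⟩ := key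
    refine ⟨P, ?_, hs⟩
    rw [hP]
    ext w
    exact (hS w).symm
  · intro g hg
    have h1 : g ∉ ⨅ p : {p : ℕ // p.Prime}, ⁅elemKernel G p, elemKernel G p⁆ := by
      rw [hG, Subgroup.mem_bot]
      exact hg
    rw [Subgroup.mem_iInf] at h1
    push Not at h1
    obtain ⟨⟨p, hp⟩, h2⟩ := h1
    have hN : (elemKernel G p).Normal := Subgroup.normalClosure_normal
    refine ⟨⁅elemKernel G p, elemKernel G p⁆, elemKernel G p, p,
      Subgroup.commutator_normal _ _, hN, Subgroup.commutator_le_left _ _, h2, hp,
      fun x hx y hy => ?_, fun x => ?_, fun x y => ?_⟩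
    · exact Subgroup.commutator_mem_commutator hx hy
    · exact Subgroup.subset_normalClosure (Or.inr ⟨x, rfl⟩)
    · exact Subgroup.subset_normalClosure (Or.inl ⟨x, y, rfl⟩)

end Vale.Agent.Results.P329.GroupLanguages
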